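import Crest.Agent.X212.Ix82.Dir
import Crest.Agent.X212.Num57.Lt

/-!
# Row 212, D-TOP (helper51): Betti numbers and signature of a gluing along rational homology spheres
-/

set_option autoImplicit false
set_option linter.unusedSectionVars false
noncomputable section
open scoped Manifold ContDiff Topology
open Set Function Filter Module

namespace Crest.Agent.X212.Dtp51
open Crest.Agent.R208 Crest.Agent.R208.F Dr59 Int54 Ix82
open M (Mf pm)
open Num57 (vol)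

section gen
variable {X : Mf 4} {k : ℕ} {U V C : Set X.M} {c o : X.M → Ext X.E}

theorem cs_shrink (hU : IsOpen U) (hV : IsOpen V) (e : U ∪ V = univ) (hC : IsCompact C) (s : U ∩ V ⊆ C)
    (h : Cs X.I (k + 1) univ c) (hx : Ex X.I V c) : ∃ c', Cs X.I (k + 1) U c' ∧ Ex X.I univ (c - c') := by
  have := sigmaCompact (I := X.I) X.M
  obtain ⟨χ, hχ⟩ := exists_cut (I := X.I) hU hV
  obtain ⟨q, h1, h2, h3⟩ := hx.deg (h.cl.dg.mono (subset_univ _))
  have m : ∀ x, x ∈ U ∪ V := fun x => e.ge trivial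
  have z : Cz X.I univ V (1 - χ) := ⟨fun x _ => contMDiffAt_const.sub (hχ.sm x (m x)),
    fun x _ hw => (hχ.o x ((m x).resolve_right hw) hw).mono fun y hy => by simp [hy]⟩
  have k0 : ∀ x ∉ U, c - dM X.I ((1 - χ) • q) =ᶠ[𝓝 x] 0 := fun x hx => by
    have hv := (m x).resolve_left hx
    filter_upwards [(hχ.z x hv hx).eventually_nhds, hV.mem_nhds hv] with y h4 h5
    rw [Pi.sub_apply, ← h3 y h5, Pi.zero_apply, sub_eq_zero]
    exact dM_congr (h4.mono fun y hy => by simp [hy])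
  refine ⟨_, ⟨h.cl.sub (cl_dM isOpen_univ (z.sm_smul h1) (z.dg_smul h2)),
    HasCompactSupport.intro (h.hc.isCompact.union hC) fun x hx => ?_,
    fun x hx => by_contra fun a => notMem_tsupport_iff_eventuallyEq.2 (k0 x a) hx⟩,
    (ex_dM (z.sm_smul h1)).congr fun x _ => by simp⟩
  by_cases a : x ∈ U
  · rw [Pi.sub_apply, image_eq_zero_of_notMem_tsupport fun b => hx (.inl b),
      dM_congr (z.smul_zero trivial (fun b => hx (.inr (s ⟨a, b⟩))) q), dM_zero, Pi.zero_apply, sub_zero]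
  · exact (k0 x a).self_of_nhds

theorem lat_shrink {ι : Type} [Fintype ι] [DecidableEq ι] {f : ι → X.M → Ext X.E} {G : Matrix ι ι ℝ}
    (h : Lat X.I o univ univ f G) (hU : IsOpen U) (hV : IsOpen V) (e : U ∪ V = univ) (hC : IsCompact C)
    (s : U ∩ V ⊆ C) (hz : HZ X.I 2 V) : ∃ f', Lat X.I o univ U f' G := by
  choose f' a b using fun i => cs_shrink hU hV e hC s (h.cs i) (hz _ ((h.cs i).on V))
  exact ⟨f', { h with
    sub := subset_univ _
    cs := a
    gram := fun i j => by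
      rw [← ((a j).mono (subset_univ _)).ip_coh h.ori (h.cs i).cl.sm (a i).cl.sm (b i), ip_comm (h.cs i).cl.dg,
        ← (h.cs i).ip_coh h.ori (h.cs j).cl.sm (a j).cl.sm (b j), ip_comm (h.cs j).cl.dg, h.gram] }⟩

theorem bd_disj {n m : ℕ} (hU : IsOpen U) (hV : IsOpen V) (d : Disjoint U V) (a : Bd X.I k U n)
    (b : Bd X.I k V m) : Bd X.I k (U ∪ V) (n + m) := by
  have := a.finite
  have := b.finite
  have i : Injective ((res (I := X.I) (k := k) (subset_union_left : U ⊆ U ∪ V)).prod (res subset_union_right)) :=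
    (injective_iff_map_eq_zero _).2 fun x hx =>
      res_inj_disj hU hV d rfl (congrArg Prod.fst hx) (congrArg Prod.snd hx)
  have := Module.Finite.of_injective _ i
  exact bd_of_finrank ((LinearMap.finrank_le_finrank_of_injective i).trans
    (finrank_prod.le.trans (add_le_add a.finrank_le b.finrank_le)))

theorem bd_iUnion {α : Type} [Fintype α] {W : α → Set X.M} (ho : ∀ a, IsOpen (W a)) (hd : Pairwise (Disjoint on W))
    (h : ∀ a, IsPreconnected (W a)) : Bd X.I 0 (⋃ a, W a) (Fintype.card α) := by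
  classical
  suffices ∀ s : Finset α, Bd X.I 0 (⋃ a ∈ s, W a) s.card by simpa using this Finset.univ
  intro s
  induction s using Finset.induction_on with
  | empty => simpa using bd_zero.2 hz_empty
  | insert a s ha ih =>
    rw [Finset.set_biUnion_insert, Finset.card_insert_of_notMem ha, add_comm]
    exact bd_disj (ho a) (isOpen_biUnion fun b _ => ho b)
      (disjoint_iUnion₂_right.2 fun b hb => hd fun e => ha (e ▸ hb)) (bd0 (ho a) (h a)) ih

end gen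

theorem sum_sign {ι : Type} [Fintype ι] (g : ι → ℝ) :
    ∑ a, (SignType.sign (g a) : ℝ) = {i | 0 < g i}.ncard - {i | g i < 0}.ncard := by
  simp only [ncard_eq_toFinset_card', toFinset_ofPred, ← Finset.sum_boole, ← Finset.sum_sub_distrib]
  refine Finset.sum_congr rfl fun a _ => ?_
  rcases lt_trichotomy (g a) 0 with h | h | h
  exacts [by simp [h, h.not_gt], by simp [h], by simp [h, h.not_gt]]

variable {κ U : Type} [Fintype κ] [NormedAddCommGroup U] [InnerProductSpace ℝ U] [FiniteDimensional ℝ U]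
  {M M₁ M₂ : DM κ U} {J : Type} [Fintype J] {e : J → DE κ U} {s : J → Bool}

/-- a literal correspondence as a partial diffeomorphism -/
def pd {l : OpenPartialHomeomorph M₁.X.M M.X.M} (L : M₁.Lit M l) : PartialDiffeomorph M₁.X.I M.X.I M₁.X.M M.X.M ∞ :=
  ⟨l.toPartialEquiv, l.open_source, l.open_target, L.iso.sm, L.iso.sm'⟩

theorem same_lit {l : OpenPartialHomeomorph M₁.X.M M.X.M} (L : M₁.Lit M l) (h1 : M₁.Loc) (h : M.Loc) :
    SameOn (vol M₁.F M₁.o) (Dr59.pm M₁.X.I M.X.I l (vol M.F M.o)) l.source :=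
  sameOn_of_rat_pos fun y hy => by
    open Num57 in
    have k : ∀ a b c d, e4 (Dr59.pm M₁.X.I M.X.I l (vol M.F M.o) y) (ee M₁.F y a) (ee M₁.F y b)
        (ee M₁.F y c) (ee M₁.F y d) = M₁.o a b c d y := fun a b c d => by
      rw [DM.o, ← L.d y hy, ← DM.o, ← e4_vol M.F (h.ok.vo' _), e4, e4, pm_apply, evA_pb]
      refine congrArg _ (funext fun i => ?_)
      fin_cases i <;> exact L.iso.e _ y hy
    rw [Num57.rat_vol _ h1.ok.h4 (h1.ok.vo' y)]
    simp only [Num57.ph, k, ← sq, (h1.ok.vo y).nm]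
    norm_num

section ends
variable (k : ∀ j, En (e j) (s j) M₁) {T : Set ℝ} {j : J} {x : M₁.X.M}

/-- the part of an end over the heights `T` -/
def nk (T : Set ℝ) (j : J) : Set M₁.X.M := (k j).ψ '' {x | pm (s j) * x.2 ∈ T}

/-- the core below the height `c` -/
def co (c : ℝ) : Set M₁.X.M := {x | ∀ j, pm (s j) * (k j).tm x < c}

theorem op_co (c : ℝ) : IsOpen (co k c) := by
  rw [co, ofPred_forall]
  exact isOpen_iInter_of_finite fun j => isOpen_lt (continuous_const.mul (k j).cont) continuous_const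

theorem sl_eq {Y : Type} (a : ℝ) : {x : Y × ℝ | a * x.2 ∈ T} = univ ×ˢ (LinearMap.mulLeft ℝ a ⁻¹' T) :=
  ext fun _ => (and_iff_right trivial).symm

variable (hT : T ⊆ Ioi 0)
include hT

theorem sub_src : {x | pm (s j) * x.2 ∈ T} ⊆ (k j).ψ.source := fun _ h => (k j).src.ge (hT h)

theorem mem_nk : x ∈ nk k T j ↔ pm (s j) * (k j).tm x ∈ T := by
  refine ⟨?_, fun h => ?_⟩
  · rintro ⟨y, hy, rfl⟩
    rwa [(k j).tm_ψ y (sub_src k hT hy)]
  · obtain ⟨y, hy, rfl⟩ := (k j).ψ.surjOn ((k j).tgt.ge (hT h))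
    exact ⟨y, by rwa [(k j).tm_ψ y hy] at h, rfl⟩

theorem op_nk (o : IsOpen T) : IsOpen (nk k T j) := by
  rw [show nk k T j = _ from ext fun _ => mem_nk k hT]
  exact o.preimage (continuous_const.mul (k j).cont)

theorem conn_nk (c : Convex ℝ T) : IsPreconnected (nk k T j) := by
  refine IsPreconnected.image ?_ _ ((k j).ψ.continuousOn.mono (sub_src k hT))
  rw [sl_eq]
  exact isPreconnected_univ.prod (c.is_linear_preimage (LinearMap.mulLeft ℝ (pm (s j))).isLinear).isPreconnected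

theorem hz_nk (o : IsOpen T) (c : Convex ℝ T) {i : ℕ} (h : HZ (e j).Y.I i (univ : Set (e j).Y.M)) :
    HZ M₁.X.I i (nk k T j) := by
  refine (hz_pd (pd (k j).lit) (W := {x : (e j).Y.M × ℝ | pm (s j) * x.2 ∈ T})
    (o.preimage (continuous_const.mul continuous_snd)) (sub_src k hT)).2 ?_
  rw [sl_eq]
  exact h.prod_convex isOpen_univ (o.preimage (continuous_const.mul continuous_id))
    (c.is_linear_preimage (LinearMap.mulLeft ℝ (pm (s j))).isLinear)

variable (hd : Pairwise fun i j => Disjoint (k i).ψ.target (k j).ψ.target)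
include hd

theorem dj_nk : Pairwise (Disjoint on nk k T) := fun i j h => (hd h).mono
  (fun _ a => (k i).tgt.ge (hT ((mem_nk k hT).1 a))) fun _ a => (k j).tgt.ge (hT ((mem_nk k hT).1 a))

theorem hz_un (o : IsOpen T) (c : Convex ℝ T) {i : ℕ} (h : ∀ j, HZ (e j).Y.I i (univ : Set (e j).Y.M)) :
    HZ M₁.X.I i (⋃ j, nk k T j) := by
  simpa using Num57.hz_biUnion finite_univ (fun j _ => op_nk k hT o) (fun i _ j _ => @dj_nk _ _ _ _ _ _ _ _ _ _ _ k _ hT hd i j)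
    fun j _ => hz_nk k hT o c (h j)

theorem nk_co {c : ℝ} (hc : 0 < c) (h : T ⊆ Iio c) : nk k T j ⊆ co k c := fun x a i => by
  rcases eq_or_ne i j with rfl | n
  · exact h ((mem_nk k hT).1 a)
  · exact (not_lt.1 fun p => disjoint_left.1 (hd n) ((k i).tgt.ge p)
      ((k j).tgt.ge (hT ((mem_nk k hT).1 a)))).trans_lt hc

end ends

theorem side (k : ∀ j, En (e j) (s j) M₁) (hd : Pairwise fun i j => Disjoint (k i).ψ.target (k j).ψ.target)
    (hq : ∀ j, (e j).Qh) (h1 : M₁.Loc) (h : M.Loc) {l : OpenPartialHomeomorph M₁.X.M M.X.M} (L : M₁.Lit M l)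
    (sl : l.source = co k 4) {n : ℕ} {σ : ℝ} (t : M₁.Tq n σ) : HZ M.X.I 1 l.target ∧
      ∃ (f : Fin n → M.X.M → Ext M.X.E) (g : Fin n → ℝ), Lat M.X.I (vol M.F M.o) l.target (l '' co k 2) f
        (Matrix.diagonal g) ∧ σ = ∑ a, (SignType.sign (g a) : ℝ) := by
  have := sigmaCompact (I := M₁.X.I) M₁.X.M
  obtain ⟨t1, f, g, t2, t3⟩ := t
  have p : Ioi (1 : ℝ) ⊆ Ioi 0 := Ioi_subset_Ioi zero_le_one
  have q : ∀ c, Ioo (1 : ℝ) c ⊆ Ioi 0 := fun c => Ioo_subset_Ioi_self.trans p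
  have q' : Icc (1 : ℝ) 2 ⊆ Ioi 0 := fun _ a => one_pos.trans_le a.1
  have oW := isOpen_iUnion fun j => op_nk k (j := j) p isOpen_Ioi
  have u : ∀ c > 1, co k c ∪ ⋃ j, nk k (Ioi 1) j = univ := fun c hc => eq_univ_of_forall fun x =>
    or_iff_not_imp_left.2 fun a => let ⟨j, b⟩ := not_forall.1 a
      mem_iUnion.2 ⟨j, (mem_nk k p).2 (hc.trans_le (not_lt.1 b))⟩
  have i : ∀ c > 0, co k c ∩ ⋃ j, nk k (Ioi 1) j = ⋃ j, nk k (Ioo 1 c) j := fun c hc => ext fun x =>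
    ⟨fun a => let ⟨j, b⟩ := mem_iUnion.1 a.2; mem_iUnion.2 ⟨j, (mem_nk k (q c)).2 ⟨(mem_nk k p).1 b, a.1 j⟩⟩,
      fun a => let ⟨j, b⟩ := mem_iUnion.1 a
        ⟨nk_co k (q c) hd hc Ioo_subset_Iio_self b, mem_iUnion.2 ⟨j, image_mono (fun _ r => r.1) b⟩⟩⟩
  have z := fun r hr => (i 4 four_pos).symm ▸ hz_un k (q 4) hd isOpen_Ioo (convex_Ioo _ _) (i := r) hr
  have K : ∀ j, IsCompact {x : (e j).Y.M × ℝ | pm (s j) * x.2 ∈ Icc 1 2} := fun j => by
    refine (isCompact_univ.prod (isCompact_Icc (a := -2) (b := 2))).of_isClosed_subset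
      (isClosed_Icc.preimage (continuous_const.mul continuous_snd)) fun x a => ⟨trivial, ?_⟩
    have a1 := a.1
    have a2 := a.2
    cases r : s j <;> simp only [r, X212.M.pm] at a1 a2 <;> constructor <;> norm_num at a1 a2 <;> linarith
  obtain ⟨f', t4⟩ := lat_shrink t2 (op_co k 2) oW (u 2 one_lt_two) (isCompact_iUnion fun j =>
    (K j).image_of_continuousOn ((k j).ψ.continuousOn.mono (sub_src k q')))
    ((i 2 two_pos).le.trans (iUnion_mono fun j => image_mono fun _ r => Ioo_subset_Icc_self r))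
    (hz_un k p hd isOpen_Ioi (convex_Ioi _) fun j => (hq j).2)
  have e : (pd L) '' co k 4 = l.target := sl ▸ l.image_source_eq_target
  have c : co k 2 ⊆ co k 4 := fun _ a j => (a j).trans (by norm_num)
  rw [← e]
  exact ⟨(hz_pd (pd L) (op_co k 4) sl.ge).2 (HZ.of_union (op_co k 4) oW (z 1 fun j => (hq j).1)
    ((u 4 (by norm_num)).symm ▸ t1)), _, g, (Lat.remove ((u 4 (by norm_num)).symm ▸ t4) (op_co k 4) oW c
      (z 2 fun j => (hq j).2)).push (pd L) sl.ge h.ok.ori ((same_lit L h1 h).mono (c.trans sl.ge)), t3⟩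

theorem glue {N₁ N₂ : Type} {e₁ : N₁ → DE κ U} {s₁ : N₁ → Bool}
    {e₂ : N₂ → DE κ U} {s₂ : N₂ → Bool} {k₁ : ∀ j, En (e j) (s j) M₁} {k₂ : ∀ j, En (e j) (!s j) M₂}
    {r₁ : ∀ i, En (e₁ i) (s₁ i) M₁} {r₂ : ∀ i, En (e₂ i) (s₂ i) M₂} {r₁' : ∀ i, En (e₁ i) (s₁ i) M}
    {r₂' : ∀ i, En (e₂ i) (s₂ i) M} {l r} (h : GG k₁ k₂ r₁ r₂ M r₁' r₂' l r) (hq : ∀ j, (e j).Qh)
    {n₁ n₂ : ℕ} {σ₁ σ₂ : ℝ} (t₁ : M₁.Tq n₁ σ₁) (t₂ : M₂.Tq n₂ σ₂) :
    (Unique J → HZ M.X.I 1 (univ : Set M.X.M)) ∧ Bd M.X.I 1 (univ : Set M.X.M) (Fintype.card J) ∧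
      ∃ (f : Fin (n₁ + n₂) → M.X.M → Ext M.X.E) (g : Fin (n₁ + n₂) → ℝ),
        Lat M.X.I (vol M.F M.o) univ univ f (Matrix.diagonal g) ∧ σ₁ + σ₂ = ∑ a, (SignType.sign (g a) : ℝ) := by
  have := sigmaCompact (I := M.X.I) M.X.M
  have G := h.gl
  have d₁ : Pairwise fun i j => Disjoint (k₁ i).ψ.target (k₁ j).ψ.target := fun i j n =>
    h.ok₁.dj (i := .inl i) (j := .inl j) (by simpa using n)
  obtain ⟨a₁, f₁, g₁, b₁, rfl⟩ := side k₁ d₁ hq h.ok₁.loc h.ok.loc G.l₁ G.s₁ t₁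
  obtain ⟨a₂, f₂, g₂, b₂, rfl⟩ := side k₂ (fun i j n => h.ok₂.dj (i := .inl i) (j := .inl j) (by simpa using n)) hq
    h.ok₂.loc h.ok.loc G.l₂ G.s₂ t₂
  have p : Ioo (0 : ℝ) 4 ⊆ Ioi 0 := Ioo_subset_Ioi_self
  have c : ∀ j, nk k₁ (Ioo 0 4) j ⊆ l.source := fun j => G.s₁ ▸ nk_co k₁ p d₁ four_pos Ioo_subset_Iio_self
  have cap : l.target ∩ r.target = ⋃ j, l '' nk k₁ (Ioo 0 4) j := G.cap
  have cn := fun j => (conn_nk k₁ p (convex_Ioo _ _)).image _ (l.continuousOn.mono (c j))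
  have z : HZ M.X.I 1 (l.target ∩ r.target) := by
    rw [cap, ← image_iUnion]
    exact (hz_pd (pd G.l₁) (isOpen_iUnion fun j => op_nk k₁ p isOpen_Ioo) (iUnion_subset c)).2
      (hz_un k₁ p d₁ isOpen_Ioo (convex_Ioo _ _) fun j => (hq j).1)
  have b := (b₁.union b₂ z.sj (disjoint_left.2 ?_)).reindex finSumFinEquiv.symm
  · rw [G.cov, Matrix.fromBlocks_diagonal, Matrix.submatrix_diagonal_equiv] at b
    refine ⟨fun _ => G.cov ▸ a₁.union1 l.open_target r.open_target a₂ (by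
      rw [cap, show ∀ A : J → Set M.X.M, ⋃ j, A j = A default from iSup_unique]; exact cn _), ?_,
      _, _, b.mono (subset_univ _) subset_rfl, ?_⟩
    · simpa [G.cov] using (bd_zero.2 a₁).union l.open_target r.open_target (bd_zero.2 a₂) (cap ▸ bd_iUnion
        (fun j => l.isOpen_image_of_subset_source (op_nk k₁ p isOpen_Ioo) (c j))
        (fun i j n => (dj_nk k₁ p d₁ n).image l.injOn (c i) (c j)) cn)
    · rw [← finSumFinEquiv.sum_comp, Fintype.sum_sum_type]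
      simp
  · rintro _ ⟨x, hx, rfl⟩ ⟨x', hx', e'⟩
    have m : x ∈ l.source := G.s₁.ge fun j => (hx j).trans (by norm_num)
    have m' : x' ∈ r.source := G.s₂.ge fun j => (hx' j).trans (by norm_num)
    obtain ⟨j, _, ⟨⟨y, t⟩, ht, rfl⟩, e''⟩ := mem_iUnion.1 (cap.le ⟨l.map_source m, e' ▸ r.map_source m'⟩)
    obtain rfl := l.injOn (c j ⟨_, ht, rfl⟩) m e''
    have v : pm (!s j) * (t - 4 * pm (s j)) = 4 - pm (s j) * t := by cases s j <;> simp only [X212.M.pm] <;> norm_num; ring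
    have w : pm (!s j) * (t - 4 * pm (s j)) ∈ Ioo (0 : ℝ) 4 := by
      rw [v]; exact ⟨sub_pos.2 ht.2, sub_lt_self _ ht.1⟩
    obtain rfl := r.injOn m' (G.s₂ ▸ nk_co k₂ p (fun i j n => h.ok₂.dj (i := .inl i) (j := .inl j)
      (by simpa using n)) four_pos Ioo_subset_Iio_self ⟨(y, _), w, rfl⟩) (e'.trans (G.nk j y t ht))
    have u := hx j
    have u' := hx' j
    rw [(k₁ j).tm_ψ _ (sub_src k₁ p ht)] at u
    rw [(k₂ j).tm_ψ _ (sub_src k₂ p w), v] at u'
    linarith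

/-- **D-TOP1** -/
theorem dTop1 : DTop1 κ U := fun _ _ _ _ _ _ _ _ _ _ _ _ _ _ _ _ _ _ _ _ _ _ _ h ⟨u⟩ hq _ _ _ _ t₁ t₂ =>
  let ⟨a, _, b⟩ := glue h hq t₁ t₂; ⟨a u, b⟩

/-- **D-TOP2** -/
theorem dTop2 : DTop2 κ U := by
  intro M₁ M₂ M J N₁ N₂ _ _ _ e s e₁ s₁ e₂ s₂ k₁ k₂ r₁ r₂ r₁' r₂' l r h _ _ hq n₁ σ₁ n₂ σ₂ t₁ t₂
  obtain ⟨-, a, f, g, b, c⟩ := glue h hq t₁ t₂
  have : CompactSpace M.X.M := ⟨by simpa using h.ok.cpt 0⟩
  have := h.ok.con
  obtain ⟨i1, i2⟩ := Idg99.int_both h.ok.loc.ok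
  have a1 : (Num57.bb M.X.I M.X.M 1 : ℝ) ≤ Nat.card J := by exact_mod_cast Nat.card_eq_fintype_card (α := J) ▸ a.finrank_le
  have a0 : Num57.bb M.X.I M.X.M 0 = 1 := Num57.finrank0 isOpen_univ isConnected_univ
  refine ⟨i1.trans (by rw [c, sum_sign, ← b.b_diag.1, ← b.b_diag.2]), ?_⟩
  rw [DM.int, i2, a0, b.bb, abs_le]
  have := (Num57.bb M.X.I M.X.M 1).cast_nonneg (α := ℝ)
  have := (Nat.card J).cast_nonneg (α := ℝ)
  constructor <;> simp only [Fintype.card_fin] <;> push_cast <;> linarith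

end Crest.Agent.X212.Dtp51
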